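import Vale.Agent.P366CL.NDefs
import Vale.Agent.P366K.Rep
import Vale.Agent.P366M.End2

/-!
# P366ND: the boundary of the deformed data is trapped
-/

set_option linter.all false

open Filter Topology Set Metric
open scoped ContDiff
open Vale.Agent.P366 Vale.Agent.P366M Vale.Agent.P366K
open Vale.Agent.P366.Stmt (E)

noncomputable section

namespace Vale.Agent.P366ND

theorem tube {V : Type} [NormedAddCommGroup V] [NormedSpace ℝ V] {S : Set V} (hS : IsCompact S)
    {f : ℝ × V → ℝ} (h1 : ∀ y ∈ S, ContDiffAt ℝ 1 f (0, y)) (h2 : ∀ y ∈ S, f (0, y) ≤ 0)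
    (h3 : ∀ y ∈ S, fderiv ℝ f (0, y) (1, 0) < 0) : ∀ᶠ t in 𝓝[>] (0 : ℝ), ∀ y ∈ S, f (t, y) ≤ 0 := by
  have h := hS.eventually_forall_of_forall_eventually (x₀ := (0 : ℝ))
    (P := fun t y => DifferentiableAt ℝ f (t, y) ∧ fderiv ℝ f (t, y) (1, 0) < 0) fun y hy =>
      (((h1 y hy).eventually (by simp)).mono fun p hp => hp.differentiableAt one_ne_zero).and
        ((((h1 y hy).fderiv_right (m := 0) (by simp)).clm_apply
          contDiffAt_const).continuousAt.eventually_lt continuousAt_const (h3 y hy))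
  obtain ⟨δ, hδ, h⟩ := Metric.eventually_nhds_iff.1 h
  filter_upwards [Ioo_mem_nhdsGT hδ] with t ht y hy
  have d : ∀ s ∈ Icc 0 t, HasDerivAt (fun s => f (s, y)) (fderiv ℝ f (s, y) (1, 0)) s ∧
      fderiv ℝ f (s, y) (1, 0) < 0 := fun s hs => by
    have k := h (y := s) (by rw [Real.dist_eq, sub_zero, abs_of_nonneg hs.1]; linarith [hs.2, ht.2])
      y hy
    exact ⟨k.1.hasFDerivAt.comp_hasDerivAt s ((hasDerivAt_id s).prodMk (hasDerivAt_const s y)), k.2⟩
  have a := antitoneOn_of_deriv_nonpos (convex_Icc 0 t)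
    (fun s hs => (d s hs).1.continuousAt.continuousWithinAt)
    (fun s hs => (d s (interior_subset hs)).1.differentiableAt.differentiableWithinAt)
    fun s hs => by rw [(d s (interior_subset hs)).1.deriv]; exact (d s (interior_subset hs)).2.le
  exact (a (left_mem_Icc.2 ht.1.le) (right_mem_Icc.2 ht.1.le) ht.1.le).trans (h2 y hy)

theorem cd_line {n : ℕ} {a b : E n → C.Jt n} {f : E n → C.Jf n} (ha : ContDiff ℝ ∞ a)
    (hb : ContDiff ℝ ∞ b) (hf : ContDiff ℝ ∞ f) {y : E n} (hd : (Matrix.of (a y).1).det ≠ 0)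
    (hq : 0 < C.jQ (a y) (f y)) :
    ContDiffAt ℝ ∞ (fun p : ℝ × E n => C.jth (a p.2 + p.1 • b p.2) (f p.2)) (0, y) := by
  have h : ContDiff ℝ ∞ fun p : ℝ × E n => (a p.2 + p.1 • b p.2, f p.2) :=
    ((ha.comp contDiff_snd).add (contDiff_fst.smul (hb.comp contDiff_snd))).prodMk
      (hf.comp contDiff_snd)
  have q := C.cd_jth hd hq
  rw [show (a y, f y) = (fun p : ℝ × E n => (a p.2 + p.1 • b p.2, f p.2)) (0, y) by simp] at q
  exact q.comp (0, y) h.contDiffAt

theorem nt : P366CL.NT := by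
  intro n M _ D c h k hh hk hc h0 h1
  obtain ⟨hF, hd, -, R, hR⟩ := D.dom
  obtain ⟨B, hC⟩ := pt_bd M R
  have hK : Sym D.K := ⟨D.smK, D.syK⟩
  have key : ∀ e ∈ range fun x : M => ch x, ∀ᶠ t in 𝓝[>] (0 : ℝ),
      ∀ y ∈ closedBall (0 : E n) B ∩ {y | loc e D.F y = 0}, C.jth (C.jet (rep e D.g) (rep e D.K) y +
        t • C.jet (rep e h) (rep e k) y) (C.jef (loc e D.F) y) ≤ 0 := by
    rintro _ ⟨x, rfl⟩
    have he := ch_mem x
    have hg := D.met.rep he
    have hp : ∀ y, loc (ch x) D.F y = 0 → ∃ i, Stmt.pd i (loc (ch x) D.F) y ≠ 0 := fun y hy => by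
      by_contra hn
      push Not at hn
      obtain ⟨i, hi⟩ := hd _ hy
      have dF := hF.differentiable (by simp) ((ch x).symm y)
      have := ip_rep he D.g dF dF
      simp only [P366Z.ip, hn, mul_zero, Finset.sum_const_zero] at this
      exact ((D.met.pos _).inv.dotProduct_mulVec_pos (x := fun i => pd i D.F ((ch x).symm y))
        fun h => hi (congrFun h i)).ne (this.trans (P366Z.quad_eq _ _))
    have cd : ∀ y, loc (ch x) D.F y = 0 → ContDiffAt ℝ ∞ (fun p : ℝ × E n =>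
        C.jth (C.jet (rep (ch x) D.g) (rep (ch x) D.K) p.2 + p.1 • C.jet (rep (ch x) h)
          (rep (ch x) k) p.2) (C.jef (loc (ch x) D.F) p.2)) (0, y) := fun y hy =>
      cd_line (C.cd_jet hg.sm (hK.sm _ he)) (C.cd_jet (hh.sm _ he) (hk.sm _ he))
        (C.cd_jef (hF _ he)) (hg.det_pos y).ne' (C.jQ_pos hg (hp y hy))
    refine tube (f := fun p : ℝ × E n =>
        C.jth (C.jet (rep (ch x) D.g) (rep (ch x) D.K) p.2 + p.1 • C.jet (rep (ch x) h)
          (rep (ch x) k) p.2) (C.jef (loc (ch x) D.F) p.2))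
      ((isCompact_closedBall _ _).inter_right (isClosed_eq (hF _ he).continuous continuous_const))
      (fun y hy => (cd y hy.2).of_le (by simp)) (fun y hy => ?_) fun y hy => ?_
    · simp only [zero_smul, add_zero, ← C.th_jet]
      rw [thetaPlus_rep D.met he D.K (hF.contDiffAt.of_le (by norm_cast))]
      exact (h0 _ hy.2).le
    · have q := (C.der_fam (p := (0, y)) ((cd y hy.2).differentiableAt (by simp))).deriv
      have q2 := (rep_chart D.met hK hh hk hF he y).2.2
      rw [← q]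
      simp only [← C.jet_fam hg.sm (hK.sm _ he) (hh.sm _ he) (hk.sm _ he), ← C.th_jet]
      have q3 := h1 _ hy.2
      rw [q2, C.Lth] at q3
      linarith
  filter_upwards [(eventually_all_finite Mfs.fin).2 key] with t ht x hx
  have he := ch_mem x
  have q := ht _ ⟨x, rfl⟩ (pt x) ⟨mem_closedBall_zero_iff.2 (hC x (not_lt.1 fun h =>
    (hR x h).ne' hx)), by simpa only [mem_setOf_eq, loc, pt, (ch x).left_inv (mem_ch x)] using hx⟩
  rw [← C.jet_fam (D.met.sm _ he) (hK.sm _ he) (hh.sm _ he) (hk.sm _ he), ← C.th_jet,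
    ← rep_fam, ← rep_fam, thetaPlus_pt] at q
  exact q

end Vale.Agent.P366ND
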